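import Vale.Agent.P216.B7.Props
import Vale.Agent.P216.B7774.Z4g

/-!
# P216-B7, row Z9: pigeonhole and gluing; descent to the cyclic covering with `s` sheets
-/

set_option linter.all false

open Set

namespace Vale.Agent.P216.B7774

open Vale.Agent.P216.Sl Vale.Agent.P216.PS Vale.Agent.P216.B7
open Real (pi_pos)

variable {M : Type}

/-! ### The circle -/

theorem ex_add (r s : ℝ) : ex (r + s) = ex r * ex s := by
  rw [ex, ex, ex, mul_add, Circle.exp_add]

theorem ex_sub (r s : ℝ) : ex (r - s) = ex r / ex s := by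
  rw [ex, ex, ex, mul_sub, Circle.exp_sub]

theorem ex_nat_mul (s : ℕ) (r : ℝ) : ex (s * r) = ex r ^ s := by
  induction s with
  | zero => simp [ex]
  | succ s ih =>
    rw [pow_succ, ← ih, ← ex_add]
    congr 1
    push_cast
    ring

theorem ex_int (m : ℤ) : ex m = 1 := by
  rw [ex, mul_comm]
  exact Circle.exp_int_mul_two_pi m

/-- The angle in `(-1/2, 1/2]`. -/
noncomputable def ang (z : Circle) : ℝ := Complex.arg z / (2 * Real.pi)

theorem ex_ang (z : Circle) : ex (ang z) = z := by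
  have h : (2 * Real.pi) * (Complex.arg z / (2 * Real.pi)) = Complex.arg z := by
    have := Real.pi_pos
    field_simp
  rw [ex, ang, h, Circle.exp_arg]

theorem ang_ex {r : ℝ} (h : |r| < 1 / 2) : ang (ex r) = r := by
  have hp := Real.pi_pos
  have h' := abs_lt.1 h
  rw [ang, ex, Circle.arg_exp (by nlinarith [h'.1]) (by nlinarith [h'.2])]
  field_simp

theorem ang_ex_int (r : ℝ) : ∃ m : ℤ, ang (ex r) = r + m := by
  have h1 : ex (ang (ex r)) = ex r := ex_ang _
  rw [ex, ex, Circle.exp_eq_exp] at h1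
  obtain ⟨m, hm⟩ := h1
  refine ⟨m, ?_⟩
  have hp := Real.pi_pos
  change 2 * Real.pi * ang (ex r) = 2 * Real.pi * r + m * (2 * Real.pi) at hm
  have : (2 * Real.pi) * ang (ex r) = (2 * Real.pi) * (r + m) := by
    rw [hm]
    ring
  exact mul_left_cancel₀ (by positivity) this

theorem ang_small {η : ℝ} (hη : 0 < η) : ∃ δ > 0, ∀ z w : Circle, dist z w < δ →
    |ang (z / w)| < η := by
  have hp := Real.pi_pos
  have hc : ContinuousAt Complex.arg 1 :=
    Complex.continuousAt_arg (by simp)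
  obtain ⟨δ, hδ, h⟩ := Metric.continuousAt_iff.1 hc (2 * Real.pi * η) (by positivity)
  refine ⟨δ, hδ, fun z w hzw => ?_⟩
  have h1 : dist ((z / w : Circle) : ℂ) 1 = dist z w := by
    have h0 : dist z w = dist (z : ℂ) (w : ℂ) := rfl
    rw [h0, Complex.dist_eq, Complex.dist_eq, Circle.coe_div]
    have hw : (w : ℂ) ≠ 0 := Circle.coe_ne_zero w
    have : (z : ℂ) / w - 1 = ((z : ℂ) - w) / w := by field_simp
    rw [this, norm_div, Circle.norm_coe, div_one]
  have h2 := h (h1.trans_lt hzw)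
  rw [Complex.arg_one, Real.dist_eq, sub_zero] at h2
  rw [ang, abs_div, abs_of_pos (by positivity : (0 : ℝ) < 2 * Real.pi), div_lt_iff₀ (by positivity)]
  linarith

/-! ### Translations -/

/-- The deck translations. -/
def tr (m : ℤ) (p : M × ℝ) : M × ℝ := (p.1, p.2 + m)

theorem tr_zero (p : M × ℝ) : tr 0 p = p := by
  simp [tr]

theorem tr_add (m n : ℤ) (p : M × ℝ) : tr (m + n) p = tr m (tr n p) := by
  simp only [tr, Prod.mk.injEq, true_and]
  push_cast
  ring

theorem tr_dist [MetricSpace M] (m : ℤ) (p q : M × ℝ) : dist (tr m p) (tr m q) = dist p q := by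
  simp only [tr, Prod.dist_eq, Real.dist_eq]
  congr 2
  ring

theorem tr_mem [TopologicalSpace M] {h : C(M, Circle)} (m : ℤ) (p : M × ℝ) (hp : p ∈ Xt h) :
    tr m p ∈ Xt h := by
  show h p.1 = ex (p.2 + m)
  rw [ex_add, ex_int, mul_one]
  exact hp

theorem slb_eq [TopologicalSpace M] (h : C(M, Circle)) (R : ℝ) :
    Slb h R = SlabX (Xt h) Prod.snd (-R) R := by
  ext p
  simp only [Slb, SlabX, mem_setOf_eq, abs_le]

/-! ### Lifts of small lists -/

/-- The lift of a point near `p`. -/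
noncomputable def lf (s : ℕ) (p q : M × Circle) : M × ℝ :=
  (q.1, (s : ℝ) * (ang p.2 + ang (q.2 / p.2)))

/-- The lift of a small list. -/
noncomputable def lft (s : ℕ) : List (M × Circle) → List (M × ℝ)
  | [] => []
  | p :: l => (p :: l).map (lf s p)

theorem lft_cons (s : ℕ) (p : M × Circle) (l : List (M × Circle)) :
    lft s (p :: l) = (p :: l).map (lf s p) := rfl

theorem lft_prs {s : ℕ} (hs : 1 ≤ s) {l : List (M × ℝ)}
    (h : ∀ p ∈ l, ∀ q ∈ l, |q.2 - p.2| < 1 / 2) :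
    ∃ m : ℤ, lft s (l.map (prs s)) = l.map (tr (s * m)) := by
  have hs' : (1 : ℝ) ≤ s := by exact_mod_cast hs
  have hs0 : (s : ℝ) ≠ 0 := by positivity
  rcases l with _ | ⟨p, l⟩
  · exact ⟨0, rfl⟩
  obtain ⟨m, hm⟩ := ang_ex_int (p.2 / s)
  refine ⟨m, ?_⟩
  rw [List.map_cons, lft_cons, ← List.map_cons, List.map_map]
  refine List.map_congr_left fun q hq => ?_
  have h1 := h p List.mem_cons_self q hq
  have h2 : ang (ex (q.2 / s) / ex (p.2 / s)) = (q.2 - p.2) / s := by
    rw [← ex_sub, ← sub_div]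
    refine ang_ex ?_
    rw [abs_div, abs_of_pos (by positivity : (0 : ℝ) < s), div_lt_iff₀ (by positivity)]
    nlinarith
  show (q.1, (s : ℝ) * (ang (ex (p.2 / s)) + ang (ex (q.2 / s) / ex (p.2 / s)))) = tr (s * m) q
  rw [hm, h2, tr]
  congr 1
  push_cast
  field_simp
  ring

theorem lft_map {s : ℕ} (hs : 1 ≤ s) (l : List (M × Circle)) : (lft s l).map (prs s) = l := by
  have hs0 : (s : ℝ) ≠ 0 := by positivity
  rcases l with _ | ⟨p, l⟩
  · rfl
  rw [lft_cons, List.map_map]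
  conv_rhs => rw [← List.map_id (p :: l)]
  refine List.map_congr_left fun q hq => ?_
  show (q.1, ex ((s : ℝ) * (ang p.2 + ang (q.2 / p.2)) / s)) = q
  rw [mul_div_cancel_left₀ _ hs0, ex_add, ex_ang, ex_ang, mul_div_cancel]

theorem lft_mem [TopologicalSpace M] {h : C(M, Circle)} {s : ℕ} {l : List (M × Circle)}
    (hl : ∀ p ∈ l, p ∈ Msp h s) : ∀ p ∈ lft s l, p ∈ Xt h := by
  rcases l with _ | ⟨p, l⟩
  · intro q hq
    simp [lft] at hq
  intro q' hq'
  rw [lft_cons] at hq'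
  obtain ⟨q, hq, rfl⟩ := List.mem_map.1 hq'
  show h q.1 = ex ((s : ℝ) * (ang p.2 + ang (q.2 / p.2)))
  rw [ex_nat_mul, ex_add, ex_ang, ex_ang, mul_div_cancel]
  exact (hl q hq).symm

theorem lft_small [MetricSpace M] {s : ℕ} (hs : 1 ≤ s) {ε : ℝ} (hε : 0 < ε) :
    ∃ δ > 0, ∀ l : List (M × Circle), (∀ p ∈ l, ∀ q ∈ l, dist p q < δ) →
      ∀ p ∈ lft s l, ∀ q ∈ lft s l, dist p q < ε := by
  have hs' : (1 : ℝ) ≤ s := by exact_mod_cast hs
  have hs0 : (0 : ℝ) < s := by positivity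
  obtain ⟨δ, hδ, h⟩ := ang_small (η := ε / (2 * s)) (by positivity)
  refine ⟨min δ ε, lt_min hδ hε, fun l hl => ?_⟩
  rcases l with _ | ⟨p, l⟩
  · intro q hq
    simp [lft] at hq
  have key : ∀ q ∈ p :: l, |ang (q.2 / p.2)| < ε / (2 * s) := fun q hq => by
    refine h _ _ (lt_of_le_of_lt ?_ ((hl q hq p List.mem_cons_self).trans_le (min_le_left _ _)))
    rw [Prod.dist_eq]
    exact le_max_right _ _
  intro q1' hq1' q2' hq2'
  rw [lft_cons] at hq1' hq2'
  obtain ⟨q1, hq1, rfl⟩ := List.mem_map.1 hq1'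
  obtain ⟨q2, hq2, rfl⟩ := List.mem_map.1 hq2'
  rw [Prod.dist_eq]
  refine max_lt ?_ ?_
  · refine lt_of_le_of_lt ?_ ((hl q1 hq1 q2 hq2).trans_le (min_le_right _ _))
    rw [Prod.dist_eq]
    exact le_max_left _ _
  · have h1 := abs_lt.1 (key q1 hq1)
    have h2 := abs_lt.1 (key q2 hq2)
    have e : s * (ε / (2 * s)) = ε / 2 := by field_simp
    show dist ((s : ℝ) * (ang p.2 + ang (q1.2 / p.2))) ((s : ℝ) * (ang p.2 + ang (q2.2 / p.2))) < ε
    rw [Real.dist_eq, ← mul_sub, abs_mul, abs_of_pos hs0]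
    have h3 : |ang p.2 + ang (q1.2 / p.2) - (ang p.2 + ang (q2.2 / p.2))| < 2 * (ε / (2 * s)) := by
      rw [abs_lt]
      constructor <;> linarith [h1.1, h1.2, h2.1, h2.2]
    calc (s : ℝ) * |ang p.2 + ang (q1.2 / p.2) - (ang p.2 + ang (q2.2 / p.2))|
        < s * (2 * (ε / (2 * s))) := by
          exact mul_lt_mul_of_pos_left h3 hs0
      _ = ε := by field_simp

/-- **Descent** to the covering with `s` sheets. -/
theorem descent [MetricSpace M] {k : Type} [Field k] {h : C(M, Circle)} {s : ℕ} (hs : 1 ≤ s)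
    {j : ℕ} {U : List (M × ℝ) → k} (hU : CocL (Xt h) j U)
    (hinv : ∀ (m : ℤ) l, U (l.map (tr (s * m))) = U l) :
    CocL (Msp h s) j (fun l => U (lft s l)) ∧
      ∀ l : List (M × ℝ), (∀ p ∈ l, ∀ q ∈ l, dist p q < 1 / 2) →
        U (lft s (l.map (prs s))) = U l := by
  have key : ∀ l : List (M × ℝ), (∀ p ∈ l, ∀ q ∈ l, dist p q < 1 / 2) →
      U (lft s (l.map (prs s))) = U l := by
    intro l hl
    obtain ⟨m, hm⟩ := lft_prs hs (l := l) fun p hp q hq => by
      have := hl q hq p hp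
      rw [Prod.dist_eq] at this
      exact (le_max_right _ _).trans_lt this
    rw [hm, hinv]
  refine ⟨?_, key⟩
  obtain ⟨ε, hε, hU⟩ := hU
  obtain ⟨δ, hδ, hsm⟩ := lft_small (M := M) hs (lt_min hε (by norm_num : (0 : ℝ) < 1 / 2))
  refine ⟨δ, hδ, fun l hl hl' => ?_⟩
  have h1 := hsm l hl'.2
  have h2 := lft_map hs l
  have hlen : (lft s l).length = l.length := by
    rw [← h2, List.length_map, h2]
  have e : dl (fun l => U (lft s l)) l = dl (fun l => U (lft s (l.map (prs s)))) (lft s l) := by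
    rw [Sl.dl_map (fun l => U (lft s l)) (prs s) (lft s l), h2]
  rw [e]
  have e2 : dl (fun l => U (lft s (l.map (prs s)))) (lft s l) = dl U (lft s l) := by
    refine Sl.dl_congr fun l' _ hm => key l' fun p hp q hq => ?_
    exact (h1 p (hm p hp) q (hm q hq)).trans_le (min_le_right _ _)
  rw [e2]
  exact hU _ (hlen.trans hl) ⟨lft_mem hl'.1, fun p hp q hq =>
    (h1 p hp q hq).trans_le (min_le_left _ _)⟩

/-- **Z9**. -/
theorem z9Goal (h8 : Z8Goal) : Z9Goal := by
  intro M _ _ ρ hρ hs h j hj hNZ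
  have hN0 : ∃ R : ℝ, ∀ R' : ℝ, R ≤ R' → ∃ f : List (M × ℝ) → ZMod 2,
      CocL (Slb h R') j f ∧ ¬ ExL (Slb h R) j f := by
    by_contra hcon
    refine hNZ fun R => ?_
    by_contra hcon2
    refine hcon ⟨R, fun R' hR' => ?_⟩
    by_contra hcon3
    refine hcon2 ⟨R', hR', fun f hf => ?_⟩
    by_contra hcon4
    exact hcon3 ⟨f, hf, hcon4⟩
  obtain ⟨R, hR⟩ := hN0
  have hout : Out (Xt h) tr Prod.snd j (ZMod 2) := by
    refine z4 (X := Xt h) (T := tr) (f := Prod.snd) (k := ZMod 2) (n := j) (a := -R) (b := R)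
      tr_zero tr_add tr_dist tr_mem (fun m p => rfl) ?_ hj ?_ ?_
    · intro η hη
      refine ⟨η, hη, fun p q hpq => lt_of_le_of_lt ?_ hpq⟩
      rw [Prod.dist_eq]
      exact le_max_right _ _
    · intro a b
      have hab : |a| ≤ max |a| |b| := le_max_left _ _
      have hab' : |b| ≤ max |a| |b| := le_max_right _ _
      have h0 : 0 ≤ max |a| |b| := (abs_nonneg a).trans hab
      obtain ⟨n, g, hg⟩ := h8 M ρ hρ hs h j hj (max |a| |b| + 1) (max |a| |b| + 2)
        (by linarith) (by linarith)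
      refine ⟨-(max |a| |b| + 2), max |a| |b| + 2, range g, finite_range g, fun v hv => ?_⟩
      rw [← slb_eq] at hv
      obtain ⟨i, hi⟩ := hg v hv
      refine ⟨g i, ⟨i, rfl⟩, ?_⟩
      rw [slb_eq] at hi
      refine hi.mono (SlabX.mono ?_ ?_)
      · linarith [neg_abs_le a]
      · linarith [le_abs_self b]
    · intro a' b'
      obtain ⟨f, hf, hfn⟩ := hR (max R (max |a'| |b'|)) (le_max_left _ _)
      refine ⟨f, ?_, ?_⟩
      · rw [slb_eq] at hf
        have h1 : max |a'| |b'| ≤ max R (max |a'| |b'|) := le_max_right _ _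
        have h2 : |a'| ≤ max |a'| |b'| := le_max_left _ _
        have h3 : |b'| ≤ max |a'| |b'| := le_max_right _ _
        exact hf.mono (SlabX.mono (by linarith [neg_abs_le a']) (by linarith [le_abs_self b']))
      · rw [slb_eq] at hfn
        exact hfn
  obtain ⟨s, U, hs0, hU, hinv, a, b, hne⟩ := hout
  obtain ⟨s, rfl⟩ := Int.eq_ofNat_of_zero_le hs0.le
  have hs1 : 1 ≤ s := by exact_mod_cast hs0
  obtain ⟨h1, h2⟩ := descent hs1 hU hinv
  refine ⟨s, hs1, fun l => U (lft s l), h1, max |a| |b|, fun hex => hne ?_⟩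
  obtain ⟨g, hg0, ε, hε, hg⟩ := hex
  refine ⟨g, hg0, min ε (1 / 2), lt_min hε (by norm_num), fun l hl hl' => ?_⟩
  rw [← h2 l fun p hp q hq => (hl'.2 p hp q hq).trans_le (min_le_right _ _)]
  refine hg l hl ⟨fun p hp => ?_, fun p hp q hq => (hl'.2 p hp q hq).trans_le (min_le_left _ _)⟩
  have := hl'.1 p hp
  refine ⟨this.1, abs_le.2 ⟨?_, ?_⟩⟩
  · linarith [this.2.1, neg_abs_le a, le_max_left |a| |b|]
  · linarith [this.2.2, le_abs_self b, le_max_right |a| |b|]

end Vale.Agent.P216.B7774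

namespace Vale.Agent.P216.B7

/-- **Z9**. -/
theorem z9Goal (h8 : Z8Goal) : Z9Goal := B7774.z9Goal h8

end Vale.Agent.P216.B7
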